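import Vale.Agent.P014T.Kx.Tw
import Vale.Agent.P014T.Pq.All
import Vale.Agent.P014T.Dr.St
import Vale.Agent.P014T.Ba.Spq
import Vale.Agent.P014T.Bt.Ac
import Vale.Agent.P014T.Cp.Defs
import Vale.Agent.P014T.Ew.Cmp
import Vale.Agent.P004S.Bas3

/-!
# P014T, block EW: cocycles in coordinates and cocycles with values in points (helper16)
-/

set_option autoImplicit false
set_option linter.all false

open scoped Classical

noncomputable section

namespace Vale.Agent.P014T.Ew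

open Matrix Set
open Vale.Agent.P022 (Qb GQ IsConj)
open Vale.Agent.P004S.Ga (K O)
open Vale.Agent.P004S.Aq hiding rz
open Vale.Agent.P004F.Rc (mq mq_eq mq_zero hn hn_mul)
open Vale.Agent.P004M.TE (Pt ga Tm bs mt rho cp_rho)
open P027M.K
open Ki (wp wp_cp dt)
open Kx.Tw (rz co co_inj co_tors co_ex co_ga co_lev co_rz rz_surj)
open Bt (dd Zl Z0 Km dd_apply Gp)
open Ba (Tk sp Kr sp_map)
open Dr (Co Ch cj)
open Cp (Zn)

variable {A B A' B' : ℤ} {j n : ℕ} {H : Subgroup GQ} {S : Finset ℕ} {c : GQ}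

/-- `e` gives coordinates on the points of order `2 ^ j`, the action is given by `a` -/
structure Xy (j : ℕ) (a : GQ → Matrix (Fin 2) (Fin 2) (ZMod (2 ^ j)))
    (e : (Fin 2 → ZMod (2 ^ j)) →+ Pt A B) : Prop where
  inj : Function.Injective e
  ex : ∀ y, 2 ^ j • y = 0 → ∃ v, e v = y
  act : ∀ g v, e (a g *ᵥ v) = ga g (e v)

/-- **from coordinates to points** -/
def cz (e : (Fin 2 → ZMod (2 ^ j)) →+ Pt A B) : (GQ → Fin 2 → ZMod (2 ^ j)) →+ GQ → Pt A B :=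
  e.compLeft GQ

section gen

variable {a : GQ → Matrix (Fin 2) (Fin 2) (ZMod (2 ^ j))} {e : (Fin 2 → ZMod (2 ^ j)) →+ Pt A B}
  {x x' : GQ → Fin 2 → ZMod (2 ^ j)} {z : GQ → Pt A B}

theorem cz_apply (x : GQ → Fin 2 → ZMod (2 ^ j)) (g : GQ) : cz e x g = e (x g) := rfl

theorem e_smul (e : (Fin 2 → ZMod (2 ^ j)) →+ Pt A B) (s : ZMod (2 ^ j))
    (v : Fin 2 → ZMod (2 ^ j)) : e (s • v) = s.val • e v := by
  rw [← map_nsmul, ← Nat.cast_smul_eq_nsmul (ZMod (2 ^ j)), ZMod.natCast_zmod_val]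

theorem e_int (e : (Fin 2 → ZMod (2 ^ j)) →+ Pt A B) (s : ℤ) (v : Fin 2 → ZMod (2 ^ j)) :
    e ((s : ZMod (2 ^ j)) • v) = s • e v := by rw [Int.cast_smul_eq_zsmul, map_zsmul]

theorem e_tor (e : (Fin 2 → ZMod (2 ^ j)) →+ Pt A B) (v : Fin 2 → ZMod (2 ^ j)) :
    2 ^ j • e v = 0 := by
  rw [← map_nsmul, ← Nat.cast_smul_eq_nsmul (ZMod (2 ^ j)), ZMod.natCast_self, zero_smul, map_zero]

theorem cz_smul (s : ZMod (2 ^ j)) (x : GQ → Fin 2 → ZMod (2 ^ j)) :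
    cz e (s • x) = s.val • cz e x := funext fun g => e_smul e s _

theorem cz_int (s : ℤ) (x : GQ → Fin 2 → ZMod (2 ^ j)) :
    cz e ((s : ZMod (2 ^ j)) • x) = s • cz e x := funext fun g => e_int e s _

theorem cz_tor (x : GQ → Fin 2 → ZMod (2 ^ j)) : 2 ^ j • cz e x = 0 := funext fun g => e_tor e _

namespace Xy

variable (h : Xy j a e)
include h

theorem act' (g : GQ) (v : Fin 2 → ZMod (2 ^ j)) : e ((a g - 1) *ᵥ v) = ga g (e v) - e v := by
  rw [sub_mulVec, one_mulVec, map_sub, h.act]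

theorem cz_inj : Function.Injective (cz e) := fun _ _ k => funext fun g => h.inj (congrFun k g)

theorem cz_zero {g : GQ} : cz e x g = 0 ↔ x g = 0 := map_eq_zero_iff _ h.inj

theorem cz_ex (k : ∀ g, 2 ^ j • z g = 0) : ∃ x, cz e x = z := by
  choose x q using fun g => h.ex _ (k g)
  exact ⟨x, funext q⟩

theorem cz_ex' (k : ∀ g ∈ H, 2 ^ j • z g = 0) : ∃ x, ∀ g ∈ H, cz e x g = z g := by
  choose! x q using fun g m => h.ex _ (k g m)
  exact ⟨x, q⟩

/-- cocycles of a subgroup -/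
theorem co_iff : Co H a x ↔ Zn H j (cz e x) := by
  refine ⟨fun q => ⟨?_, fun g hg k hk => ?_, fun g _ => e_tor e _⟩, fun q => ⟨?_, ?_⟩⟩
  · obtain ⟨W, o, w⟩ := q.lc
    refine (IsLocallyConstant.iff_eventually_eq _).2 fun g₀ => ?_
    filter_upwards [(o.preimage ((continuous_const_mul (g₀ : GQ)⁻¹).comp
      continuous_subtype_val)).mem_nhds (show g₀ ∈ _ by simpa using W.one_mem)] with g hg
    have := q.coc g₀ g₀.2 _ (mul_mem (inv_mem g₀.2) g.2)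
    rw [mul_inv_cancel_left, w ((g₀ : GQ)⁻¹ * g) hg (mul_mem (inv_mem g₀.2) g.2), mulVec_zero,
      add_zero] at this
    rw [cz_apply, cz_apply, this]
  · rw [cz_apply, q.coc g hg k hk, map_add, h.act]
    rfl
  · exact fun g hg k hk => h.inj (by rw [map_add, h.act]; exact q.co g hg k hk)
  · have e1 : cz e x 1 = 0 := by
      have := q.co 1 (one_mem _) 1 (one_mem _)
      rwa [mul_one, P004M.TE.ga_one, left_eq_add] at this
    obtain ⟨U, o, k⟩ := isOpen_induced_iff.1 (q.lc {0})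
    obtain ⟨W, oW, kW⟩ := P004S.ex_open (o.mem_nhds ((Set.ext_iff.1 k ⟨1, one_mem _⟩).2 e1))
    exact ⟨W, oW, fun w p b => h.cz_zero.1 ((Set.ext_iff.1 k ⟨w, b⟩).1 (kW p))⟩

theorem co_zl (q : Co H a x) : cz e x ∈ Zl A B H := (h.co_iff.1 q).mem

/-- framed cocycles -/
theorem zq_iff : x ∈ Pq.Zq (ZMod (2 ^ j)) S a c ↔ cz e x ∈ Z0 A B S c := by
  refine ⟨fun ⟨p, ⟨W, o, w⟩, b, d⟩ => ?_, fun q => ?_⟩
  · have := (h.co_iff (H := ⊤)).1 ⟨fun g _ k _ => p g k, W, o, fun g m _ => w g m⟩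
    exact ⟨this.lc.comp_continuous (f := fun g : GQ => (⟨g, trivial⟩ : (⊤ : Subgroup GQ)))
      (continuous_id.subtype_mk _), fun g k => this.co g trivial k trivial, ⟨j, fun g => e_tor e _⟩,
      fun g m => h.cz_zero.2 (b g m), h.cz_zero.2 d⟩
  · obtain ⟨p, W, o, w⟩ := h.co_iff.2 (Zn.of (Bt.Z0_le S c ⊤ q) fun g _ => e_tor e _)
    exact ⟨fun g k => p g trivial k trivial, ⟨W, o, fun g m => w g m trivial⟩,
      fun g m => h.cz_zero.1 (q.2.2.2.1 g m), h.cz_zero.1 q.2.2.2.2⟩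

theorem card_zq : Nat.card (Pq.Zq (ZMod (2 ^ j)) S a c) = Nat.card (Tk (Z0 A B S c) j) :=
  Nat.card_congr (Equiv.ofBijective
    (fun x => ⟨⟨cz e x.1, h.zq_iff.1 x.2⟩, Subtype.ext (cz_tor x.1)⟩)
    ⟨fun x y k => Subtype.ext (h.cz_inj (congrArg (·.1.1) k)), fun y => by
      obtain ⟨x, k⟩ := h.cz_ex (z := y.1.1) fun g => congrFun (congrArg Subtype.val y.2) g
      exact ⟨⟨x, h.zq_iff.2 (k ▸ y.1.2)⟩, Subtype.ext (Subtype.ext k)⟩⟩)

/-- cohomologous cocycles -/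
theorem ch_iff : Ch H a x x' ↔ ∃ t, 2 ^ j • t = 0 ∧ ∀ g ∈ H, cz e x g - cz e x' g = ga g t - t := by
  refine ⟨fun ⟨w, k⟩ => ⟨e w, e_tor e w, fun g m => ?_⟩, fun ⟨t, p, k⟩ => ?_⟩
  · rw [cz_apply, cz_apply, ← map_sub, k g m, map_sub, h.act]
  · obtain ⟨w, rfl⟩ := h.ex t p
    exact ⟨w, fun g m => h.inj (by rw [map_sub, map_sub, h.act]; exact k g m)⟩

theorem cz_cob (v : Fin 2 → ZMod (2 ^ j)) : cz e (fun g => (a g - 1) *ᵥ v) = dd A B (e v) :=
  funext fun g => h.act' g v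

/-- **the numbers of a presentation** -/
theorem num {ι κ : Type} [Fintype κ] (Q : Matrix ι κ (ZMod (2 ^ j)))
    (u : GQ → Matrix (Fin 2) κ (ZMod (2 ^ j)))
    (b : BijOn (fun y g => u g *ᵥ y) {y | Q *ᵥ y = 0} (Pq.Zq (ZMod (2 ^ j)) S a c)) :
    Nat.card (Kr Q) = Nat.card (Tk (Z0 A B S c) j) ∧ ∀ v w, Q *ᵥ v = 0 → Q *ᵥ w = 0 →
      sp v w = sp (cz e fun g => u g *ᵥ v) (cz e fun g => u g *ᵥ w) := by
  refine ⟨(Nat.card_congr b.equiv).trans h.card_zq, fun v w p q => ?_⟩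
  let f : Kr Q →+ GQ → Fin 2 → ZMod (2 ^ j) :=
    AddMonoidHom.mk' (fun y g => u g *ᵥ y.1) fun y y' => funext fun g => mulVec_add _ _ _
  exact (sp_map (Kr Q).subtype Subtype.val_injective ⟨v, p⟩ ⟨w, q⟩).trans
    (sp_map ((cz e).comp f) (h.cz_inj.comp fun y y' k => Subtype.ext (b.injOn y.2 y'.2 k))
      ⟨v, p⟩ ⟨w, q⟩).symm

/-- twists and isomorphisms -/
theorem tw {s : GQ → ℤ} (t : Pt A B ≃+ Pt A' B') (ht : ∀ g y, ga g (t y) = t (s g • ga g y))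
    {a' : GQ → Matrix (Fin 2) (Fin 2) (ZMod (2 ^ j))} (ha : ∀ g, a' g = (s g : ZMod (2 ^ j)) • a g) :
    Xy j a' (t.toAddMonoidHom.comp e) :=
  ⟨t.injective.comp h.inj, fun y p => (h.ex (t.symm y) (by rw [← map_nsmul, p, map_zero])).imp
    fun v k => (congrArg t k).trans (t.apply_symm_apply y), fun g v => by
    show t (e _) = ga g (t (e v))
    rw [ha, smul_mulVec, e_int, h.act, ht]⟩

end Xy

theorem Xy.cz_cj {ρ : GQ →* Matrix (Fin 2) (Fin 2) (ZMod (2 ^ j))} (h : Xy j ρ e) (s : GQ)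
    (x : GQ → Fin 2 → ZMod (2 ^ j)) (g : GQ) :
    cz e (cj ρ s x) g = ga s (cz e x (s⁻¹ * g * s)) := h.act s _

end gen

/-! ### subgroups with two generators -/

section sp

variable {Z : Type} [AddCommGroup Z] {x x' y y' : Z}

theorem sp_congr (h : AddSubgroup.zmultiples x = AddSubgroup.zmultiples x')
    (k : y - y' ∈ AddSubgroup.zmultiples x) : sp x y = sp x' y' := by
  have q : ∀ {y y' : Z}, y - y' ∈ AddSubgroup.zmultiples x →
      AddSubgroup.zmultiples x ⊔ AddSubgroup.zmultiples y ≤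
        AddSubgroup.zmultiples x ⊔ AddSubgroup.zmultiples y' := fun {y y'} k =>
    sup_le le_sup_left (AddSubgroup.zmultiples_le.2 (sub_add_cancel y y' ▸ add_mem
      (AddSubgroup.mem_sup_left k) (AddSubgroup.mem_sup_right (AddSubgroup.mem_zmultiples _))))
  rw [sp, sp, ← h, le_antisymm (q k) (q (neg_sub y y' ▸ neg_mem k))]

theorem zm_odd {k : ℕ} (h : 2 ^ k • y = 0) {m : ℤ} (o : Odd m) :
    AddSubgroup.zmultiples (m • y) = AddSubgroup.zmultiples y := by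
  obtain ⟨u, v, e⟩ : IsCoprime m (2 ^ k) :=
    IsCoprime.pow_right (Int.isCoprime_iff_gcd_eq_one.2 (Int.gcd_comm _ _ ▸
      (Nat.coprime_two_left.2 o.natAbs :)))
  refine le_antisymm (AddSubgroup.zmultiples_le.2 (zsmul_mem (AddSubgroup.mem_zmultiples _) _))
    (AddSubgroup.zmultiples_le.2 ⟨u, ?_⟩)
  have : (2 ^ k : ℤ) • y = 0 := by exact_mod_cast h
  simp only [smul_smul]
  rw [eq_sub_of_add_eq e, sub_smul, mul_smul, this, smul_zero, sub_zero, one_smul]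

theorem sp_odd {k : ℕ} (h : 2 ^ k • y = 0) {m : ℤ} (o : Odd m) : sp x (m • y) = sp x y := by
  rw [sp, sp, zm_odd h o]

end sp

/-! ### the coordinates given by the basis of the Tate module -/

variable (hD : 4 * (A : ℚ) ^ 3 + 27 * (B : ℚ) ^ 2 ≠ 0)

/-- the representation of level `j` -/
def rj (j : ℕ) : GQ →* Matrix (Fin 2) (Fin 2) (ZMod (2 ^ j)) :=
  (rz j).mapMatrix.toMonoidHom.comp (mt hD)

theorem rj_apply (g : GQ) : rj hD j g = (mt hD g).map (rz j) := rfl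

theorem xy_co (j : ℕ) : Xy j (rj hD j) (co hD j : _ →+ Pt A B) :=
  ⟨co_inj hD j, fun _ => co_ex hD j, co_ga hD j⟩

/-- the coordinates on a twist -/
def ct (t : Pt A B ≃+ Pt A' B') (j : ℕ) : (Fin 2 → ZMod (2 ^ j)) →+ Pt A' B' :=
  t.toAddMonoidHom.comp (co hD j)

theorem ct_apply (t : Pt A B ≃+ Pt A' B') (v : Fin 2 → ZMod (2 ^ j)) :
    ct hD t j v = t (co hD j v) := rfl

theorem xy_ct {s : GQ → ℤ} (t : Pt A B ≃+ Pt A' B') (ht : ∀ g y, ga g (t y) = t (s g • ga g y))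
    {a : GQ → Matrix (Fin 2) (Fin 2) (ZMod (2 ^ j))}
    (ha : ∀ g, a g = (s g : ZMod (2 ^ j)) • (mt hD g).map (rz j)) : Xy j a (ct hD t j) :=
  (xy_co hD j).tw t ht ha

/-- change of the level along any homomorphism of rings -/
theorem co_red (h : j ≤ n) (f : ZMod (2 ^ n) →+* ZMod (2 ^ j)) (v : Fin 2 → ZMod (2 ^ n)) :
    co hD j (f ∘ v) = 2 ^ (n - j) • co hD n v := by
  obtain ⟨k, rfl⟩ := Nat.exists_eq_add_of_le h
  have e1 : v = rz (j + k) ∘ (fun i => ((v i).val : ℤ_[2])) := funext fun i => by simp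
  have e2 : f ∘ v = rz j ∘ fun i => ((v i).val : ℤ_[2]) := funext fun i => by
    rw [Function.comp_apply, Function.comp_apply, map_natCast, ← map_natCast f,
      ZMod.natCast_zmod_val]
  rw [e2, ← co_lev hD j k, ← e1, Nat.add_sub_cancel_left]

theorem ct_red (t : Pt A B ≃+ Pt A' B') (h : j ≤ n) (f : ZMod (2 ^ n) →+* ZMod (2 ^ j))
    (v : Fin 2 → ZMod (2 ^ n)) : ct hD t j (f ∘ v) = 2 ^ (n - j) • ct hD t n v := by
  rw [ct_apply, co_red hD h, map_nsmul, ct_apply]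

theorem cz_red (h : j ≤ n) (f : ZMod (2 ^ n) →+* ZMod (2 ^ j)) (x : GQ → Fin 2 → ZMod (2 ^ n)) :
    cz (A := A) (B := B) (co hD j) (fun g => f ∘ x g) = 2 ^ (n - j) • cz (co hD n) x :=
  funext fun g => co_red hD h f _

theorem cz_red' (t : Pt A B ≃+ Pt A' B') (h : j ≤ n) (f : ZMod (2 ^ n) →+* ZMod (2 ^ j))
    (x : GQ → Fin 2 → ZMod (2 ^ n)) :
    cz (ct hD t j) (fun g => f ∘ x g) = 2 ^ (n - j) • cz (ct hD t n) x :=
  funext fun g => ct_red hD t h f _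

/-- the element of the Tate module of the twist with given coordinates -/
def tv (t : Pt A B ≃+ Pt A' B') (v : Fin 2 → ℤ_[2]) : Tm (A' : ℚ) (B' : ℚ) :=
  TM.map 2 t.toAddMonoidHom ((bs hD).equivFun.symm v)

theorem cp_tv (t : Pt A B ≃+ Pt A' B') (v : Fin 2 → ℤ_[2]) :
    TM.cp j (tv hD t v) = ct hD t j (rz j ∘ v) := by rw [ct_apply, co_rz]; rfl

/-- the generator of the real part of a twist in coordinates -/
theorem gp_tv {s : GQ → ℤ} (t : Pt A B ≃+ Pt A' B') (ht : ∀ g y, ga g (t y) = t (s g • ga g y))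
    {v : Fin 2 → ℤ_[2]} (hv : (s c : ℤ_[2]) • mt hD c *ᵥ v = v) (pv : ∃ i, IsUnit (v i)) :
    Gp A' B' c (tv hD t v) := by
  refine ⟨TM.ext fun r => ?_, fun k => ?_⟩
  · have X := xy_ct hD (j := r) t ht fun _ => rfl
    rw [cp_rho, cp_tv, ← X.act]
    refine congrArg _ (funext fun i => ?_)
    rw [Function.comp_apply, ← congrFun hv i, smul_mulVec, Pi.smul_apply, Pi.smul_apply, smul_eq_mul,
      smul_eq_mul, map_mul, map_intCast, RingHom.map_mulVec]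
  · obtain ⟨i, p⟩ := pv
    rw [cp_tv, map_eq_zero_iff _ (xy_ct hD t ht fun _ => rfl).inj] at k
    have := p.map (rz 1)
    rw [show rz 1 (v i) = 0 from congrFun k i] at this
    exact absurd this (by decide)

/-- the choice of the generator does not matter -/
theorem gp_zm (h : 4 * A ^ 3 + 27 * B ^ 2 ≠ 0) (hc : IsConj c) {g g' : Tm (A : ℚ) (B : ℚ)}
    (p : Gp A B c g) (q : Gp A B c g') :
    AddSubgroup.zmultiples (dd A B (TM.cp j g)) = AddSubgroup.zmultiples (dd A B (TM.cp j g')) := by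
  have k : ∀ {g g' : Tm (A : ℚ) (B : ℚ)}, Gp A B c g → Gp A B c g' →
      AddSubgroup.zmultiples (dd A B (TM.cp j g)) ≤ AddSubgroup.zmultiples (dd A B (TM.cp j g')) :=
    fun p q => by
      obtain ⟨a, rfl⟩ := q.line h hc p.1
      rw [TM.cp_smul, map_nsmul]
      exact AddSubgroup.zmultiples_le.2 (nsmul_mem (AddSubgroup.mem_zmultiples _) _)
  exact le_antisymm (k p q) (k q p)

theorem sp_gp (h : 4 * A ^ 3 + 27 * B ^ 2 ≠ 0) (hc : IsConj c) {g g' : Tm (A : ℚ) (B : ℚ)}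
    (p : Gp A B c g) (q : Gp A B c g') (z : GQ → Pt A B) :
    sp (dd A B (TM.cp j g)) z = sp (dd A B (TM.cp j g')) z :=
  sp_congr (gp_zm h hc p q) (by rw [sub_self]; exact zero_mem _)

/-- the pairing in coordinates -/
theorem wp_co (v w : Fin 2 → ZMod (2 ^ j)) :
    wp hD j (co hD j v) (co hD j w) - hn j * (v 0 * w 1 - v 1 * w 0).val ∈ O := by
  obtain ⟨s, rfl⟩ := rz_surj j v
  obtain ⟨t, rfl⟩ := rz_surj j w
  rw [co_rz, co_rz]
  have a := mq_eq.1 (wp_cp hD j ((bs hD).equivFun.symm s) ((bs hD).equivFun.symm t))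
  simp only [dt, ← Module.Basis.equivFun_apply, LinearEquiv.apply_symm_apply] at a
  refine O_of (sub_mem a (ap_O j (s 0 * t 1 - s 1 * t 0))) ?_
  simp only [ap, Function.comp_apply, map_sub, map_mul]
  ring

/-- **the end form** -/
theorem fin (h' : 4 * A' ^ 3 + 27 * B' ^ 2 ≠ 0) (hc : IsConj c) {s : GQ → ℤ}
    (t : Pt A B ≃+ Pt A' B') (ht : ∀ g y, ga g (t y) = t (s g • ga g y))
    {a : GQ → Matrix (Fin 2) (Fin 2) (ZMod (2 ^ j))}
    (ha : ∀ g, a g = (s g : ZMod (2 ^ j)) • (mt hD g).map (rz j))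
    {gp : Fin 2 → ℤ_[2]} (hv : (s c : ℤ_[2]) • mt hD c *ᵥ gp = gp) (pv : ∃ i, IsUnit (gp i))
    {ι κ : Type} [Fintype κ] (Q : Matrix ι κ (ZMod (2 ^ j)))
    (u : GQ → Matrix (Fin 2) κ (ZMod (2 ^ j)))
    (b : BijOn (fun y g => u g *ᵥ y) {y | Q *ᵥ y = 0} (Pq.Zq (ZMod (2 ^ j)) S a c))
    {v w : κ → ZMod (2 ^ j)} (qv : Q *ᵥ v = 0) (qw : Q *ᵥ w = 0)
    (dv : ∀ g, u g *ᵥ v = (a g - 1) *ᵥ (rz j ∘ gp)) {g : Tm (A' : ℚ) (B' : ℚ)} (G : Gp A' B' c g) :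
    Nat.card (Kr Q) = Nat.card (Tk (Z0 A' B' S c) j) ∧
      sp v w = sp (dd A' B' (TM.cp j g)) (cz (ct hD t j) fun k => u k *ᵥ w) := by
  have X := xy_ct hD t ht ha
  obtain ⟨p, q⟩ := X.num Q u b
  rw [q v w qv qw, funext dv, X.cz_cob, ← cp_tv, sp_gp h' hc (gp_tv hD t ht hv pv) G]
  exact ⟨p, rfl⟩

variable (hD' : 4 * (A' : ℚ) ^ 3 + 27 * (B' : ℚ) ^ 2 ≠ 0)

theorem al_wp (φ : Pt A B →+ Pt A' B') : Al fun n x y => X (wp hD' n (φ x) (φ y)) := by
  have H := Ki.pr hD'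
  have t : ∀ {n : ℕ} {x : Pt A B}, 2 ^ n • x = 0 → 2 ^ n • φ x = 0 := fun k => by
    rw [← map_nsmul, k, map_zero]
  refine ⟨fun a b d => ?_, fun a b => ?_, fun _ => by rw [Ki.wp_self, map_zero], fun a b => ?_⟩
  · rw [← map_add X, X_eq, ← mq_eq, map_add φ, map_add mq]
    exact H.addl (t a) (t b) (t d)
  · rw [← map_neg X, X_eq, ← mq_eq, map_neg mq]
    exact H.skew (t b) (t a)
  · rw [X_eq, ← mq_eq, map_nsmul]
    exact (H.levl (t a) (t b)).symm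

/-- the pairing along a homomorphism -/
theorem wp_hom (φ : Pt A B →+ Pt A' B') : ∃ u : ℤ_[2], ∀ n x y, 2 ^ n • x = 0 → 2 ^ n • y = 0 →
    wp hD' n (φ x) (φ y) - u * wp hD n x y ∈ O :=
  (cmp0 hD (al_wp hD' φ)).imp fun u k n x y a b => X_eq.1 (k n x y a b)

/-- the pairing along an isomorphism -/
theorem wp_iso (t : Pt A B ≃+ Pt A' B') : ∃ u : ℤ_[2]ˣ, ∀ n x y, 2 ^ n • x = 0 → 2 ^ n • y = 0 →
    wp hD' n (t x) (t y) - (u : ℤ_[2]) * wp hD n x y ∈ O :=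
  (cmp hD (al_wp hD' t.toAddMonoidHom) fun x a k => t.injective ((Ki.wp_nd hD'
    (by rw [← map_nsmul, a, map_zero]) fun y b => by
      obtain ⟨y, rfl⟩ := t.surjective y
      exact X_zero.1 (k y (t.injective (by rwa [map_nsmul, map_zero])))).trans
        (map_zero t).symm)).imp fun u k n x y a b => X_eq.1 (k n x y a b)

end Vale.Agent.P014T.Ew
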